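import Vale.Agent.P230.G.Up

/-!
# P230, part G6: the top block `2 ℤ^ι`, all coordinates free
-/

namespace Vale.Agent.P230.G

open Finset

/-- monotonicity of `Up` in all its numerical parameters -/
theorem Up.mono {ι : Type*} [Fintype ι] [DecidableEq ι] {lev : ι → ℕ} {M : Matrix ι ι ℝ}
    {B B' : Finset ι} {D D' : ℝ} {d d' : ℕ} {c c' slo slo' shi shi' : ℝ}
    (h : Up lev M B D d c slo shi) (hB : B ⊆ B') (hD : D ≤ D') (hd : d' ≤ d) (hc : c' ≤ c)
    (hlo : slo ≤ slo') (hhi : shi ≤ shi') : Up lev M B' D' d' c' slo' shi' := by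
  intro y
  obtain ⟨P, w, hT, hw, hX⟩ := h y
  refine ⟨P, w, ?_, ?_, ?_⟩
  · intro a z hz z' hz' z'' hz'' h1 h2
    obtain ⟨h3, h4⟩ := hT a z hz z' hz' z'' hz'' h1 h2
    exact ⟨h3, h4.trans hD⟩
  · intro z hz
    obtain ⟨h1, h2, h3, h4⟩ := hw z hz
    exact ⟨h1, h2, by linarith, by linarith⟩
  · intro μ X hμ hX0 hCA
    refine le_trans (mul_le_mul_of_nonneg_right hc hμ) (hX μ X hμ hX0 ?_)
    intro z J hJ hdJ
    exact hCA z J (hJ.trans hB) (hd.trans hdJ)

/-- G6: the block `2 ℤ^ι` with the two lifts in `[-2, 2)` of every coordinate, all of them free -/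
theorem Up.top {ι : Type*} [Fintype ι] [DecidableEq ι] (lev : ι → ℕ) :
    Up lev (Matrix.diagonal fun _ : ι => (2 : ℝ)) univ 1 (Fintype.card ι)
      ((1 / 5 : ℝ) ^ (Fintype.card ι)) (Fintype.card ι) (3 * Fintype.card ι) := by
  classical
  intro y
  -- the lower lift
  set zb : ι → ℤ := fun i => ⌈-(y i) / 2⌉ - 1 with hzb
  set P : Finset (ι → ℤ) := (univ : Finset ι).powerset.image (fun E => zb + ind E) with hP
  set κ : ℝ := (2 * (Real.sqrt (2 * Real.pi))⁻¹ * Real.exp (-2)) ^ (Fintype.card ι) with hκ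
  have hpos : ∀ z : ι → ℤ, ∀ i, pos (Matrix.diagonal fun _ : ι => (2 : ℝ)) y z i =
      y i + 2 * (z i : ℝ) := by
    intro z i
    simp [pos, Matrix.mulVec_diagonal]
  have hmem : ∀ z ∈ P, ∀ i, z i = zb i ∨ z i = zb i + 1 := by
    intro z hz i
    obtain ⟨E, -, rfl⟩ := Finset.mem_image.1 hz
    by_cases hi : i ∈ E
    · right; simp [ind, hi]
    · left; simp [ind, hi]
  have hsq : ∀ z ∈ P, ∀ i, (y i + 2 * (z i : ℝ)) ^ 2 ≤ 4 := by
    intro z hz i
    have h1 : -(y i) / 2 ≤ (⌈-(y i) / 2⌉ : ℝ) := Int.le_ceil _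
    have h2 : (⌈-(y i) / 2⌉ : ℝ) < -(y i) / 2 + 1 := Int.ceil_lt_add_one _
    rcases hmem z hz i with h | h
    · rw [h, hzb]
      push_cast
      nlinarith
    · rw [h, hzb]
      push_cast
      nlinarith
  have hn0 : ∀ z ∈ P, 0 ≤ nsq (pos (Matrix.diagonal fun _ : ι => (2 : ℝ)) y z) := by
    intro z _
    exact Finset.sum_nonneg fun i _ => sq_nonneg _
  have hn4 : ∀ z ∈ P, nsq (pos (Matrix.diagonal fun _ : ι => (2 : ℝ)) y z) ≤
      4 * (Fintype.card ι : ℝ) := by
    intro z hz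
    unfold nsq
    calc ∑ i, pos (Matrix.diagonal fun _ : ι => (2 : ℝ)) y z i ^ 2 ≤ ∑ _i : ι, (4 : ℝ) := by
          refine Finset.sum_le_sum fun i _ => ?_
          rw [hpos]
          exact hsq z hz i
      _ = 4 * (Fintype.card ι : ℝ) := by
          rw [Finset.sum_const, Finset.card_univ, nsmul_eq_mul, mul_comm]
  have hspi : 0 < Real.sqrt (2 * Real.pi) := Real.sqrt_pos.2 (by positivity)
  refine ⟨P, fun _ => κ, ?_, ?_, ?_⟩
  · intro a z hz z' hz' z'' hz'' _ _
    have h1 := hmem z hz a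
    have h2 := hmem z' hz' a
    have h3 := hmem z'' hz'' a
    constructor
    · rcases h1 with h1 | h1 <;> rcases h2 with h2 | h2 <;> rcases h3 with h3 | h3 <;>
        simp [h1, h2, h3]
    · rcases h1 with h1 | h1 <;> rcases h2 with h2 | h2 <;> simp [h1, h2]
  · intro z hz
    refine ⟨by positivity, ?_, ?_, ?_⟩
    · unfold gw
      have hdet : |(Matrix.diagonal fun _ : ι => (2 : ℝ)).det| = 2 ^ (Fintype.card ι) := by
        rw [Matrix.det_diagonal, Finset.prod_const, Finset.card_univ, abs_of_nonneg (by positivity)]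
      rw [hdet, hκ, mul_pow, mul_pow]
      refine mul_le_mul_of_nonneg_left ?_ (by positivity)
      rw [← Real.exp_nat_mul]
      refine Real.exp_le_exp.2 ?_
      have := hn4 z hz
      linarith
    · have := hn0 z hz
      linarith
    · have := hn4 z hz
      linarith
  · intro μ X hμ hX0 hCA
    have h1 := hCA zb univ (Finset.Subset.refl _) (by rw [Finset.card_univ])
    have hsum : ∑ z ∈ P, κ * X z = κ * ∑ E ∈ (univ : Finset ι).powerset, X (zb + (1 : ℤ) • ind E) := by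
      rw [hP, Finset.sum_image, Finset.mul_sum]
      · refine Finset.sum_congr rfl fun E _ => ?_
        rw [one_smul]
      · intro E _ E' _ hEE
        have h2 : ind E = ind E' := add_left_cancel hEE
        ext a
        have h3 := congrFun h2 a
        simp only [ind] at h3
        by_cases ha : a ∈ E <;> by_cases ha' : a ∈ E' <;> simp_all
    rw [hsum]
    have hκ0 : 0 ≤ κ := by positivity
    refine le_trans ?_ (mul_le_mul_of_nonneg_left h1 hκ0)
    rw [Finset.card_univ]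
    have h4 : (1 / 5 : ℝ) ^ (Fintype.card ι) ≤ κ * 2 ^ (Fintype.card ι) := by
      rw [hκ, ← mul_pow]
      refine pow_le_pow_left₀ (by norm_num) ?_ _
      have h5 : Real.sqrt (2 * Real.pi) ≤ 2.51 := by
        rw [Real.sqrt_le_left (by norm_num)]
        have := Real.pi_lt_d2
        nlinarith
      have h6 : Real.exp 2 ≤ 7.39 := by
        have h7 : Real.exp 2 = Real.exp 1 ^ 2 := by
          rw [← Real.exp_nat_mul]; norm_num
        rw [h7]
        have h8 := Real.exp_one_lt_d9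
        have h9 := Real.exp_pos 1
        nlinarith
      rw [Real.exp_neg]
      have h10 : (2.51 : ℝ)⁻¹ ≤ (Real.sqrt (2 * Real.pi))⁻¹ := inv_anti₀ hspi h5
      have h11 : (7.39 : ℝ)⁻¹ ≤ (Real.exp 2)⁻¹ := inv_anti₀ (Real.exp_pos 2) h6
      calc (1 / 5 : ℝ) ≤ 2 * (2.51 : ℝ)⁻¹ * (7.39 : ℝ)⁻¹ * 2 := by norm_num
        _ ≤ 2 * (Real.sqrt (2 * Real.pi))⁻¹ * (Real.exp 2)⁻¹ * 2 := by gcongr
    calc (1 / 5 : ℝ) ^ (Fintype.card ι) * μ ≤ κ * 2 ^ (Fintype.card ι) * μ :=
          mul_le_mul_of_nonneg_right h4 hμ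
      _ = κ * (μ * 2 ^ (Fintype.card ι)) := by ring

end Vale.Agent.P230.G
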